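import Vale.Agent.P359.Core.Pair

/-!
# P359 core: the exact identity for the square of the pair Hamiltonian

With `φ = contr e ψ` one has `⟪ψ, H ψ⟫ = C(N, 2) ‖φ‖²` and
`‖H ψ‖² = C(N, 2) ⟪φ, (1 + ∑ₖ K k + H_rest) φ⟫`.
-/

noncomputable section

set_option linter.unusedSectionVars false

namespace Vale.Agent.P359.Core

open Fin (cons cons_zero cons_succ)

variable {ι : Type*} [Fintype ι] [DecidableEq ι] {m : Type*} [Fintype m] [DecidableEq m]
variable {e : m → ι → ι → ℝ} {n : ℕ} {ψ : (Fin (n + 2) → ι) → ℝ}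

/-- The exchange kernel between a pair vector and a third particle. -/
def exch (e : m → ι → ι → ℝ) (M : m) (z : ι) (M' : m) (z' : ι) : ℝ :=
  -2 * ∑ a, e M a z' * e M' a z

/-- The exchange kernel acting on the pair and the particle `k`. -/
def exchAt (e : m → ι → ι → ℝ) {n : ℕ} (k : Fin n) (φ : m → (Fin n → ι) → ℝ) (M : m)
    (y : Fin n → ι) : ℝ :=
  ∑ M', ∑ z', exch e M (y k) M' z' * φ M' (Function.update y k z')

/-- Squared norm of a contraction. -/
def nsq {n : ℕ} (φ : m → (Fin n → ι) → ℝ) : ℝ := ∑ M, ∑ y, φ M y ^ 2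

/-- The expectation of the exchange term. -/
def exchForm (e : m → ι → ι → ℝ) {n : ℕ} (φ : m → (Fin n → ι) → ℝ) : ℝ :=
  ∑ M, ∑ y, φ M y * ∑ k, exchAt e k φ M y

/-- The expectation of the Hamiltonian of the remaining particles. -/
def restForm (e : m → ι → ι → ℝ) {n : ℕ} (φ : m → (Fin n → ι) → ℝ) : ℝ :=
  ∑ M, ∑ y, φ M y * ham e (φ M) y

theorem sum_split (f : (Fin (n + 2) → ι) → ℝ) :
    ∑ x, f x = ∑ a, ∑ b, ∑ y, f (cons a (cons b y)) := by
  rw [← (Fin.consEquiv fun _ : Fin (n + 2) => ι).sum_comp, Fintype.sum_prod_type]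
  refine Finset.sum_congr rfl fun a _ => ?_
  rw [← (Fin.consEquiv fun _ : Fin (n + 1) => ι).sum_comp, Fintype.sum_prod_type]
  rfl

/-- Pairing with the projection of the first two factors. -/
theorem sum_pairP_zero_one (ψ χ : (Fin (n + 2) → ι) → ℝ) :
    ∑ x, pairP e 0 1 ψ x * χ x = ∑ M, ∑ y, contr e ψ M y * contr e χ M y := by
  rw [sum_split]
  have h : ∀ a b (y : Fin n → ι), pairP e 0 1 ψ (cons a (cons b y))
      = ∑ M, e M a b * contr e ψ M y := by
    intro a b y
    simp only [pairP, contr, upd, cons_zero, show (1 : Fin (n + 2)) = Fin.succ 0 from rfl,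
      cons_succ, Fin.update_cons_zero, ← Fin.cons_update]
  simp only [h, Finset.sum_mul]
  rw [Finset.sum_comm (s := (Finset.univ : Finset m))]
  simp only [show ∀ M y, contr e χ M y = ∑ a, ∑ b, e M a b * χ (cons a (cons b y)) from
    fun _ _ => rfl, Finset.mul_sum]
  calc ∑ a, ∑ b, ∑ y : Fin n → ι, ∑ M, e M a b * contr e ψ M y * χ (cons a (cons b y))
      = ∑ a, ∑ b, ∑ y : Fin n → ι, ∑ M, contr e ψ M y * (e M a b * χ (cons a (cons b y))) := by
        refine Finset.sum_congr rfl fun a _ => Finset.sum_congr rfl fun b _ =>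
          Finset.sum_congr rfl fun y _ => Finset.sum_congr rfl fun M _ => ?_
        ring
    _ = ∑ a, ∑ y : Fin n → ι, ∑ b, ∑ M, contr e ψ M y * (e M a b * χ (cons a (cons b y))) :=
        Finset.sum_congr rfl fun a _ => Finset.sum_comm
    _ = ∑ y : Fin n → ι, ∑ a, ∑ b, ∑ M, contr e ψ M y * (e M a b * χ (cons a (cons b y))) :=
        Finset.sum_comm
    _ = ∑ y : Fin n → ι, ∑ a, ∑ M, ∑ b, contr e ψ M y * (e M a b * χ (cons a (cons b y))) :=
        Finset.sum_congr rfl fun y _ => Finset.sum_congr rfl fun a _ => Finset.sum_comm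
    _ = _ := by
        refine Finset.sum_congr rfl fun y _ => ?_
        rw [Finset.sum_comm]

theorem sum_ham_mul (hψ : IsAntisymm ψ) {χ : (Fin (n + 2) → ι) → ℝ}
    (hχ : IsAntisymm χ) :
    ∑ x, ham e ψ x * χ x
      = ((n + 2).choose 2 : ℝ) * ∑ M, ∑ y, contr e ψ M y * contr e χ M y := by
  rw [← sum_pairP_zero_one]
  simp only [ham, Finset.sum_mul, ite_mul, zero_mul]
  rw [Finset.sum_comm]
  simp only [Finset.sum_comm (s := (Finset.univ : Finset (Fin (n + 2) → ι)))]
  have h : ∀ i j : Fin (n + 2), (∑ x, if i < j then pairP e i j ψ x * χ x else 0)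
      = if i < j then ∑ x, pairP e 0 1 ψ x * χ x else 0 := by
    intro i j
    split_ifs with hij
    · exact sum_pairP_mul' hψ hχ (by simp) hij.ne
    · simp
  simp only [h]
  have hcard : (∑ i : Fin (n + 2), ∑ j, if i < j then (1 : ℝ) else 0) = ((n + 2).choose 2 : ℝ) := by
    refine mul_left_cancel₀ (two_ne_zero' ℝ) ?_
    have hi : ∀ i : Fin (n + 2), (∑ j, if i ≠ j then (1 : ℝ) else 0) = (n : ℝ) + 1 := fun i => by
      have e : ∀ j, (if i ≠ j then (1 : ℝ) else 0) = 1 - if i = j then 1 else 0 := fun j => by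
        split_ifs <;> simp_all
      simp [e]
      ring
    rw [two_mul_sum_lt fun i j _ => rfl, Nat.cast_choose_two]
    simp only [hi, Finset.sum_const, Finset.card_univ, Fintype.card_fin, nsmul_eq_mul]
    push_cast
    ring
  rw [← hcard, Finset.sum_mul]
  simp only [Finset.sum_mul, ite_mul, one_mul, zero_mul]

/-- `⟪ψ, H ψ⟫ = C(N, 2) ‖φ‖²`. -/
theorem form_eq (hψ : IsAntisymm ψ) :
    ∑ x, ψ x * ham e ψ x = ((n + 2).choose 2 : ℝ) * nsq (contr e ψ) := by
  simp only [mul_comm (ψ _), nsq, sq]
  exact sum_ham_mul hψ hψ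

theorem contr_pairP_zero_one (he : IsPairFamily e) (ψ : (Fin (n + 2) → ι) → ℝ) (M : m)
    (y : Fin n → ι) : contr e (pairP e 0 1 ψ) M y = contr e ψ M y := by
  have h : ∀ a b, pairP e 0 1 ψ (cons a (cons b y)) = ∑ M', e M' a b * contr e ψ M' y := by
    intro a b
    simp only [pairP, contr, upd, cons_zero, show (1 : Fin (n + 2)) = Fin.succ 0 from rfl,
      cons_succ, Fin.update_cons_zero, ← Fin.cons_update]
  rw [contr]
  simp only [h, Finset.mul_sum, ← mul_assoc]
  calc ∑ a, ∑ b, ∑ M', e M a b * e M' a b * contr e ψ M' y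
      = ∑ a, ∑ M', ∑ b, e M a b * e M' a b * contr e ψ M' y :=
        Finset.sum_congr rfl fun a _ => Finset.sum_comm
    _ = ∑ M', ∑ a, ∑ b, e M a b * e M' a b * contr e ψ M' y := Finset.sum_comm
    _ = ∑ M', (∑ a, ∑ b, e M a b * e M' a b) * contr e ψ M' y := by
        simp only [Finset.sum_mul]
    _ = _ := by simp [he.ortho]

/-- The contraction inherits antisymmetry. -/
theorem isAntisymm_contr (hψ : IsAntisymm ψ) (M : m) : IsAntisymm (contr e ψ M) := by
  intro σ y
  let τ : Equiv.Perm (Fin (n + 2)) :=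
    (Equiv.Perm.decomposeFin.symm (0, Equiv.Perm.decomposeFin.symm (0, σ)))
  have hτ : Equiv.Perm.sign τ = Equiv.Perm.sign σ := by simp [τ]
  have h : ∀ a b, (cons a (cons b (y ∘ σ)) : Fin (n + 2) → ι) = (cons a (cons b y)) ∘ τ := by
    intro a b
    funext i
    refine Fin.cases ?_ (fun j => ?_) i
    · simp [τ]
    · refine Fin.cases ?_ (fun k => ?_) j
      · simp [τ]
      · simp [τ]
  simp only [contr, h, hψ τ, hτ, Finset.mul_sum]
  refine Finset.sum_congr rfl fun a _ => Finset.sum_congr rfl fun b _ => ?_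
  ring

/-- The term of a pair sharing the second factor with the first pair. -/
theorem contr_pairP_one_succ (he : IsPairFamily e) (hψ : IsAntisymm ψ) (M : m) (y : Fin n → ι)
    (k : Fin n) :
    contr e (pairP e 1 k.succ.succ ψ) M y = contr e (pairP e 0 k.succ.succ ψ) M y := by
  simp only [contr]
  rw [Finset.sum_comm]
  refine Finset.sum_congr rfl fun a _ => Finset.sum_congr rfl fun b _ => ?_
  have hx : (cons b (cons a y) : Fin (n + 2) → ι) = cons a (cons b y) ∘ Equiv.swap 0 1 := by
    funext i
    refine Fin.cases ?_ (fun j => ?_) i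
    · simp [Equiv.swap_apply_left]
    · refine Fin.cases ?_ (fun l => ?_) j
      · simp [Equiv.swap_apply_right]
      · rw [Function.comp_apply, Equiv.swap_apply_of_ne_of_ne (Fin.succ_ne_zero _)
          (by simp [Fin.ext_iff])]
        simp
  rw [hx, pairP_comp hψ, he.anti M a b, Equiv.swap_apply_right,
    Equiv.swap_apply_of_ne_of_ne (Fin.succ_ne_zero _) (by simp [Fin.ext_iff]),
    Equiv.Perm.sign_swap (by simp)]
  simp

theorem upd_cons_succ (a b c d : ι) (y : Fin n → ι) (k : Fin n) :
    upd (cons a (cons b y) : Fin (n + 2) → ι) 0 k.succ.succ c d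
      = (cons c (cons b (Function.update y k d)) : Fin (n + 2) → ι) := by
  simp [upd, Fin.update_cons_zero, ← Fin.cons_update]

/-- The term of a pair sharing the first factor with the first pair. -/
theorem contr_pairP_zero_succ (hψ : IsAntisymm ψ) (M : m) (y : Fin n → ι) (k : Fin n) :
    2 * contr e (pairP e 0 k.succ.succ ψ) M y = exchAt e k (contr e ψ) M y := by
  have hflip : ∀ (M' : m) b, ∑ a, ∑ d, e M' a d * ψ (cons a (cons b (Function.update y k d)))
      = -contr e ψ M' (Function.update y k b) := by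
    intro M' b
    rw [contr, ← Finset.sum_neg_distrib]
    refine Finset.sum_congr rfl fun a _ => ?_
    rw [← Finset.sum_neg_distrib]
    refine Finset.sum_congr rfl fun d _ => ?_
    have hx : (cons a (cons b (Function.update y k d)) : Fin (n + 2) → ι)
        = cons a (cons d (Function.update y k b)) ∘ Equiv.swap 1 k.succ.succ := by
      funext i
      refine Fin.cases ?_ (fun j => ?_) i
      · rw [Function.comp_apply, Equiv.swap_apply_of_ne_of_ne (by simp) (Fin.succ_ne_zero _).symm]
        simp
      · refine Fin.cases ?_ (fun l => ?_) j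
        · rw [Function.comp_apply, show (Fin.succ 0 : Fin (n + 2)) = 1 from rfl,
            Equiv.swap_apply_left, cons_succ, cons_succ, Function.update_self]
          rfl
        · rcases eq_or_ne l k with rfl | hl
          · rw [Function.comp_apply, Equiv.swap_apply_right]
            simp only [cons_succ, Function.update_self]
            rfl
          · rw [Function.comp_apply, Equiv.swap_apply_of_ne_of_ne (by simp [Fin.ext_iff])
              (by simpa using hl)]
            simp only [cons_succ, Function.update_of_ne hl]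
    rw [hx, hψ.swap (by simp [Fin.ext_iff])]
    ring
  have h : ∀ a b, pairP e 0 k.succ.succ ψ (cons a (cons b y))
      = -∑ M', e M' a (y k) * contr e ψ M' (Function.update y k b) := by
    intro a b
    simp only [pairP, upd_cons_succ, hflip, cons_zero, cons_succ, mul_neg, Finset.sum_neg_distrib]
  rw [contr]
  simp only [h, exchAt, exch, mul_neg, Finset.mul_sum, Finset.sum_mul, Finset.sum_neg_distrib]
  calc -∑ a, ∑ b, ∑ M', 2 * (e M a b * (e M' a (y k) * contr e ψ M' (Function.update y k b)))
      = -∑ a, ∑ M', ∑ b, 2 * (e M a b * (e M' a (y k) * contr e ψ M' (Function.update y k b))) := by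
        rw [Finset.sum_congr rfl fun a _ => Finset.sum_comm]
    _ = -∑ M', ∑ a, ∑ b, 2 * (e M a b * (e M' a (y k) * contr e ψ M' (Function.update y k b))) := by
        rw [Finset.sum_comm]
    _ = -∑ M', ∑ b, ∑ a, 2 * (e M a b * (e M' a (y k) * contr e ψ M' (Function.update y k b))) := by
        rw [Finset.sum_congr rfl fun M' _ => Finset.sum_comm]
    _ = _ := by
        simp only [← Finset.sum_neg_distrib]
        refine Finset.sum_congr rfl fun M' _ => Finset.sum_congr rfl fun b _ =>
          Finset.sum_congr rfl fun a _ => ?_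
        ring

/-- The terms of the pairs disjoint from the first pair. -/
theorem contr_pairP_succ_succ (ψ : (Fin (n + 2) → ι) → ℝ) (M : m) (y : Fin n → ι) (i j : Fin n) :
    contr e (pairP e i.succ.succ j.succ.succ ψ) M y = pairP e i j (contr e ψ M) y := by
  simp only [contr, pairP, upd, cons_succ, ← Fin.cons_update, Finset.mul_sum]
  calc ∑ a, ∑ b, ∑ M', ∑ c, ∑ d, e M a b * (e M' (y i) (y j) *
          (e M' c d * ψ (cons a (cons b (Function.update (Function.update y i c) j d)))))
      = ∑ p : ι × ι, ∑ q : m × ι × ι, e M p.1 p.2 * (e q.1 (y i) (y j) *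
          (e q.1 q.2.1 q.2.2 *
            ψ (cons p.1 (cons p.2 (Function.update (Function.update y i q.2.1) j q.2.2))))) := by
        simp only [Fintype.sum_prod_type]
    _ = _ := by
        rw [Finset.sum_comm]
        simp only [Fintype.sum_prod_type]
        refine Finset.sum_congr rfl fun M' _ => Finset.sum_congr rfl fun c _ =>
          Finset.sum_congr rfl fun d _ => Finset.sum_congr rfl fun a _ =>
          Finset.sum_congr rfl fun b _ => ?_
        ring

/-- The contraction of `H ψ`. -/
theorem contr_ham (he : IsPairFamily e) (hψ : IsAntisymm ψ) (M : m) (y : Fin n → ι) :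
    contr e (ham e ψ) M y
      = contr e ψ M y + (∑ k, exchAt e k (contr e ψ) M y) + ham e (contr e ψ M) y := by
  have hlin : contr e (ham e ψ) M y
      = ∑ i, ∑ j, if i < j then contr e (pairP e i j ψ) M y else 0 := by
    simp only [contr, ham, Finset.mul_sum, mul_ite, mul_zero]
    calc ∑ a, ∑ b, ∑ i, ∑ j, (if i < j then e M a b * pairP e i j ψ (cons a (cons b y)) else 0)
        = ∑ p : ι × ι, ∑ q : Fin (n + 2) × Fin (n + 2), (if q.1 < q.2
            then e M p.1 p.2 * pairP e q.1 q.2 ψ (cons p.1 (cons p.2 y)) else 0) := by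
          simp only [Fintype.sum_prod_type]
      _ = _ := by
          rw [Finset.sum_comm]
          simp only [Fintype.sum_prod_type]
          refine Finset.sum_congr rfl fun i _ => Finset.sum_congr rfl fun j _ => ?_
          split_ifs <;> simp
  have hk : ∀ k : Fin n, contr e (pairP e 0 k.succ.succ ψ) M y
      + contr e (pairP e 1 k.succ.succ ψ) M y = exchAt e k (contr e ψ) M y := fun k => by
    rw [contr_pairP_one_succ he hψ, ← two_mul, contr_pairP_zero_succ hψ]
  rw [hlin]
  simp only [Fin.sum_univ_succ (n := n + 1), Fin.sum_univ_succ (n := n), if_false,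
    Fin.succ_pos, if_true, Fin.succ_lt_succ_iff, Fin.not_lt_zero, zero_add]
  simp only [show (Fin.succ 0 : Fin (n + 2)) = 1 from rfl, contr_pairP_zero_one he, ← hk, Finset.sum_add_distrib, ham, contr_pairP_succ_succ]
  ring

/-- `‖H ψ‖² = C(N, 2) ⟪φ, (1 + ∑ₖ K k + H_rest) φ⟫`. -/
theorem sq_eq (he : IsPairFamily e) (hψ : IsAntisymm ψ) :
    ∑ x, ham e ψ x ^ 2 = ((n + 2).choose 2 : ℝ) *
      (nsq (contr e ψ) + exchForm e (contr e ψ) + restForm e (contr e ψ)) := by
  simp only [sq]
  rw [sum_ham_mul hψ (isAntisymm_ham he hψ)]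
  simp only [contr_ham he hψ, nsq, exchForm, restForm, sq, mul_add, Finset.sum_add_distrib]

/-- The contraction is orthogonal to the channels killed by three-particle antisymmetrisation. -/
theorem channel_orth {n : ℕ} {ψ : (Fin (n + 1 + 2) → ι) → ℝ} (hψ : IsAntisymm ψ) (v : m → ι → ℝ)
    (hv : ∀ a b c, (∑ M, v M c * e M a b) + (∑ M, v M a * e M b c) + (∑ M, v M b * e M c a) = 0)
    (y : Fin n → ι) : ∑ M, ∑ z, v M z * contr e ψ M (cons z y) = 0 := by
  set t : ι → ι → ι → ℝ := fun a b c => ∑ M, v M c * e M a b with ht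
  set f : ι → ι → ι → ℝ := fun a b c => ψ (cons a (cons b (cons c y))) with hf
  have hS : ∑ M, ∑ z, v M z * contr e ψ M (cons z y) = ∑ a, ∑ b, ∑ c, t a b c * f a b c := by
    simp only [contr, ht, hf, Finset.mul_sum, Finset.sum_mul]
    calc ∑ M, ∑ z, ∑ a, ∑ b, v M z * (e M a b * ψ (cons a (cons b (cons z y))))
        = ∑ p : m × ι, ∑ q : ι × ι,
            v p.1 p.2 * (e p.1 q.1 q.2 * ψ (cons q.1 (cons q.2 (cons p.2 y)))) := by
          simp only [Fintype.sum_prod_type]
      _ = _ := by
          rw [Finset.sum_comm]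
          simp only [Fintype.sum_prod_type]
          refine Finset.sum_congr rfl fun a _ => Finset.sum_congr rfl fun b _ => ?_
          rw [Finset.sum_comm]
          refine Finset.sum_congr rfl fun c _ => Finset.sum_congr rfl fun M _ => ?_
          ring
  have h01 : ∀ a b c, f b a c = -f a b c := by
    intro a b c
    simp only [hf]
    rw [← hψ.swap (i := 0) (j := 1) (by simp) (cons a (cons b (cons c y)))]
    congr 1
    funext i
    refine Fin.cases ?_ (fun j => ?_) i
    · rw [Function.comp_apply, Equiv.swap_apply_left]; rfl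
    · refine Fin.cases ?_ (fun l => ?_) j
      · rw [Function.comp_apply, show (Fin.succ 0 : Fin (n + 1 + 2)) = 1 from rfl,
          Equiv.swap_apply_right]
        rfl
      · rw [Function.comp_apply, Equiv.swap_apply_of_ne_of_ne (Fin.succ_ne_zero _)
          (show l.succ.succ ≠ (1 : Fin (n + 1 + 2)) from
            (Fin.succ_injective _).ne (Fin.succ_ne_zero _))]
        simp only [cons_succ]
  have h12 : ∀ a b c, f a c b = -f a b c := by
    intro a b c
    simp only [hf]
    rw [← hψ.swap (i := Fin.succ 0) (j := Fin.succ (Fin.succ 0))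
      ((Fin.succ_injective _).ne (Fin.succ_ne_zero _).symm)
      (cons a (cons b (cons c y)))]
    congr 1
    funext i
    refine Fin.cases ?_ (fun j => ?_) i
    · rw [Function.comp_apply, Equiv.swap_apply_of_ne_of_ne (Fin.succ_ne_zero _).symm
        (Fin.succ_ne_zero _).symm]
      rfl
    · refine Fin.cases ?_ (fun l => ?_) j
      · rw [Function.comp_apply, Equiv.swap_apply_left]; rfl
      · refine Fin.cases ?_ (fun w => ?_) l
        · rw [Function.comp_apply, Equiv.swap_apply_right]; rfl
        · rw [Function.comp_apply, Equiv.swap_apply_of_ne_of_ne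
            ((Fin.succ_injective _).ne (Fin.succ_ne_zero _))
            ((Fin.succ_injective _).ne ((Fin.succ_injective _).ne (Fin.succ_ne_zero _)))]
          simp only [cons_succ]
  have hcyc : ∀ a b c, f b c a = f a b c := fun a b c => by
    rw [h12 b a c, h01 a b c, neg_neg]
  have h3 : ∀ F : ι → ι → ι → ℝ, ∑ a, ∑ b, ∑ c, F b c a = ∑ a, ∑ b, ∑ c, F a b c := fun F => by
    rw [Finset.sum_comm]
    exact Finset.sum_congr rfl fun b _ => Finset.sum_comm
  have e1 : ∑ a, ∑ b, ∑ c, t b c a * f a b c = ∑ a, ∑ b, ∑ c, t a b c * f a b c := by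
    refine Eq.trans ?_ (h3 fun a b c => t a b c * f a b c)
    simp only [hcyc]
  have e2 : ∑ a, ∑ b, ∑ c, t c a b * f a b c = ∑ a, ∑ b, ∑ c, t a b c * f a b c := by
    rw [← h3 fun a b c => t c a b * f a b c]
    simp only [hcyc]
  have e0 : ∑ a, ∑ b, ∑ c, (t a b c + t b c a + t c a b) * f a b c = 0 := by
    simp only [ht, hv, zero_mul, Finset.sum_const_zero]
  simp only [add_mul, Finset.sum_add_distrib, e1, e2] at e0
  rw [hS]
  linarith

theorem ham_eq_zero_iff (he : IsPairFamily e) (hψ : IsAntisymm ψ) :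
    ham e ψ = 0 ↔ contr e ψ = 0 := by
  constructor
  · intro h
    have h0 := form_eq (e := e) hψ
    rw [h] at h0
    simp only [Pi.zero_apply, mul_zero, Finset.sum_const_zero] at h0
    have hc : ((n + 2).choose 2 : ℝ) ≠ 0 := by
      exact_mod_cast (Nat.choose_pos (by omega)).ne'
    have h1 : nsq (contr e ψ) = 0 := (mul_eq_zero.1 h0.symm).resolve_left hc
    funext M y
    have h2 := (Finset.sum_eq_zero_iff_of_nonneg (fun M _ =>
      Finset.sum_nonneg fun y _ => sq_nonneg _)).1 h1 M (Finset.mem_univ _)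
    exact pow_eq_zero_iff two_ne_zero |>.1
      ((Finset.sum_eq_zero_iff_of_nonneg fun y _ => sq_nonneg _).1 h2 y (Finset.mem_univ _))
  · intro h
    have h1 := sq_eq he hψ
    simp only [h, nsq, exchForm, restForm, Pi.zero_apply, zero_mul, Finset.sum_const_zero,
      ne_eq, OfNat.ofNat_ne_zero, not_false_eq_true, zero_pow, add_zero, mul_zero] at h1
    funext x
    exact pow_eq_zero_iff two_ne_zero |>.1
      ((Finset.sum_eq_zero_iff_of_nonneg fun y _ => sq_nonneg _).1 h1 x (Finset.mem_univ _))

end Vale.Agent.P359.Core
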