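import Mathlib

/-!
# P359 core: pair projections on first-quantised fermion wave functions

`ι` indexes the one-particle basis, `e` is an orthonormal family of antisymmetric pair vectors and
`pairP e i j` is the projection of the tensor factors `i, j` onto its span.
-/

noncomputable section

set_option linter.unusedSectionVars false

namespace Vale.Agent.P359.Core

variable {ι : Type*} [Fintype ι] [DecidableEq ι] {m : Type*} [Fintype m] [DecidableEq m]

/-- Antisymmetry of an `N`-particle wave function. -/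
def IsAntisymm {N : ℕ} (ψ : (Fin N → ι) → ℝ) : Prop :=
  ∀ (σ : Equiv.Perm (Fin N)) (x : Fin N → ι), ψ (x ∘ σ) = ((Equiv.Perm.sign σ : ℤ) : ℝ) * ψ x

/-- An orthonormal family of antisymmetric pair vectors. -/
structure IsPairFamily (e : m → ι → ι → ℝ) : Prop where
  anti : ∀ M a b, e M b a = -e M a b
  ortho : ∀ M M', ∑ a, ∑ b, e M a b * e M' a b = if M = M' then 1 else 0

/-- Set the entries at `i` and `j`. -/
def upd {N : ℕ} (x : Fin N → ι) (i j : Fin N) (a b : ι) : Fin N → ι :=
  Function.update (Function.update x i a) j b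

/-- The pair projection of the factors `i` and `j`. -/
def pairP (e : m → ι → ι → ℝ) {N : ℕ} (i j : Fin N) (ψ : (Fin N → ι) → ℝ) (x : Fin N → ι) : ℝ :=
  ∑ M, e M (x i) (x j) * ∑ a, ∑ b, e M a b * ψ (upd x i j a b)

/-- The pair Hamiltonian. -/
def ham (e : m → ι → ι → ℝ) {N : ℕ} (ψ : (Fin N → ι) → ℝ) (x : Fin N → ι) : ℝ :=
  ∑ i, ∑ j, if i < j then pairP e i j ψ x else 0

/-- The contraction of the first two factors with the pair vectors. -/
def contr (e : m → ι → ι → ℝ) {n : ℕ} (ψ : (Fin (n + 2) → ι) → ℝ) (M : m) (y : Fin n → ι) : ℝ :=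
  ∑ a, ∑ b, e M a b * ψ (Fin.cons a (Fin.cons b y))

variable {e : m → ι → ι → ℝ} {N : ℕ} {ψ : (Fin N → ι) → ℝ}

theorem IsAntisymm.swap (hψ : IsAntisymm ψ) {i j : Fin N} (hij : i ≠ j) (x : Fin N → ι) :
    ψ (x ∘ Equiv.swap i j) = -ψ x := by
  rw [hψ, Equiv.Perm.sign_swap hij]; simp

theorem upd_comp (σ : Equiv.Perm (Fin N)) (x : Fin N → ι) (i j : Fin N) (a b : ι) :
    upd (x ∘ σ) i j a b = upd x (σ i) (σ j) a b ∘ σ := by
  simp [upd, Function.update_comp_equiv]

theorem sign_mul_self (σ : Equiv.Perm (Fin N)) :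
    ((Equiv.Perm.sign σ : ℤ) : ℝ) * ((Equiv.Perm.sign σ : ℤ) : ℝ) = 1 := by
  norm_cast
  rcases Int.units_eq_one_or (Equiv.Perm.sign σ) with h | h <;> simp [h]

/-- The pair projections transform covariantly. -/
theorem pairP_comp (hψ : IsAntisymm ψ) (σ : Equiv.Perm (Fin N)) (i j : Fin N) (x : Fin N → ι) :
    pairP e i j ψ (x ∘ σ) = ((Equiv.Perm.sign σ : ℤ) : ℝ) * pairP e (σ i) (σ j) ψ x := by
  simp only [pairP, Function.comp_apply, upd_comp, hψ σ, Finset.mul_sum]
  refine Finset.sum_congr rfl fun M _ => Finset.sum_congr rfl fun a _ =>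
    Finset.sum_congr rfl fun b _ => ?_
  ring

theorem pairP_symm (he : IsPairFamily e) {i j : Fin N} (hij : i ≠ j) (ψ : (Fin N → ι) → ℝ)
    (x : Fin N → ι) : pairP e j i ψ x = pairP e i j ψ x := by
  simp only [pairP]
  refine Finset.sum_congr rfl fun M _ => ?_
  rw [Finset.sum_comm, he.anti M (x i) (x j), neg_mul, ← mul_neg, ← Finset.sum_neg_distrib]
  refine congrArg _ (Finset.sum_congr rfl fun a _ => ?_)
  rw [← Finset.sum_neg_distrib]
  refine Finset.sum_congr rfl fun b _ => ?_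
  rw [he.anti M a b, upd, upd, Function.update_comm hij]
  ring

/-- Summation over ordered pairs. -/
theorem two_mul_sum_lt {f : Fin N → Fin N → ℝ} (hf : ∀ i j, i ≠ j → f j i = f i j) :
    2 * (∑ i, ∑ j, if i < j then f i j else 0) = ∑ i, ∑ j, if i ≠ j then f i j else 0 := by
  have h : (∑ i, ∑ j, if i < j then f i j else 0) = ∑ i, ∑ j, if j < i then f i j else 0 := by
    conv_rhs => rw [Finset.sum_comm]
    refine Finset.sum_congr rfl fun i _ => Finset.sum_congr rfl fun j _ => ?_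
    split_ifs with hij
    · exact (hf i j hij.ne).symm
    · rfl
  rw [two_mul]
  nth_rw 2 [h]
  simp only [← Finset.sum_add_distrib]
  refine Finset.sum_congr rfl fun i _ => Finset.sum_congr rfl fun j _ => ?_
  rcases lt_trichotomy i j with hij | rfl | hij
  · simp [hij, hij.ne, hij.not_gt]
  · simp
  · simp [hij, hij.ne', hij.not_gt]

/-- The Hamiltonian preserves antisymmetry. -/
theorem isAntisymm_ham (he : IsPairFamily e) (hψ : IsAntisymm ψ) : IsAntisymm (ham e ψ) := by
  intro σ x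
  refine mul_left_cancel₀ (two_ne_zero' ℝ) ?_
  rw [mul_left_comm (2 : ℝ), ham, ham,
    two_mul_sum_lt fun i j h => pairP_symm he h ψ (x ∘ σ),
    two_mul_sum_lt fun i j h => pairP_symm he h ψ x, Finset.mul_sum,
    ← Equiv.sum_comp σ (fun i => _ * ∑ j, if i ≠ j then pairP e i j ψ x else 0)]
  refine Finset.sum_congr rfl fun i _ => ?_
  rw [← Equiv.sum_comp σ (fun j => if σ i ≠ j then pairP e (σ i) j ψ x else 0), Finset.mul_sum]
  refine Finset.sum_congr rfl fun j _ => ?_
  simp [pairP_comp hψ, σ.injective.eq_iff, mul_ite]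

/-- Pairings of the pair projections with antisymmetric functions do not depend on the pair. -/
theorem sum_pairP_mul (hψ : IsAntisymm ψ) {χ : (Fin N → ι) → ℝ} (hχ : IsAntisymm χ)
    (σ : Equiv.Perm (Fin N)) (i j : Fin N) :
    ∑ x, pairP e (σ i) (σ j) ψ x * χ x = ∑ x, pairP e i j ψ x * χ x := by
  rw [← (Equiv.arrowCongr σ.symm (Equiv.refl ι)).sum_comp (fun x => pairP e i j ψ x * χ x)]
  refine Finset.sum_congr rfl fun x _ => ?_
  have hx : (Equiv.arrowCongr σ.symm (Equiv.refl ι)) x = x ∘ σ := by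
    funext k; simp [Equiv.arrowCongr]
  rw [hx, pairP_comp hψ, hχ σ, mul_mul_mul_comm, sign_mul_self, one_mul]

theorem sum_pairP_mul' (hψ : IsAntisymm ψ) {χ : (Fin N → ι) → ℝ}
    (hχ : IsAntisymm χ) {i j k l : Fin N} (hij : i ≠ j) (hkl : k ≠ l) :
    ∑ x, pairP e k l ψ x * χ x = ∑ x, pairP e i j ψ x * χ x := by
  obtain ⟨σ, h1, h2⟩ : ∃ σ : Equiv.Perm (Fin N), σ i = k ∧ σ j = l := by
    refine ⟨(Equiv.swap i k).trans (Equiv.swap (Equiv.swap i k j) l), ?_, ?_⟩
    · rw [Equiv.trans_apply, Equiv.swap_apply_left]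
      refine Equiv.swap_apply_of_ne_of_ne (fun h => hij ?_) hkl
      exact (Equiv.swap i k).injective (by rw [Equiv.swap_apply_left]; exact h)
    · rw [Equiv.trans_apply, Equiv.swap_apply_left]
  rw [← h1, ← h2, sum_pairP_mul hψ hχ]

end Vale.Agent.P359.Core
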